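import Vale.Agent.P011.E6.Pos3
import Vale.Agent.P011.E6I.Cj

/-!
The sign of the multiplier on the frame of a cubic field at a real place.
-/

open Matrix

namespace Vale.Agent.P011.E6I.H319

open Vale.Agent.P011.MPQ Vale.Agent.P011.D4 Vale.Agent.P011.D4.Oct Vale.Agent.P011.E6
open Vale.Agent.P011.E6I

section alg

variable {K : Type} [Field K]

/-- The companion matrix. -/
def Mc (p2 p1 p0 : K) : Matrix (Fin 3) (Fin 3) K := !![0, 0, -p0; 1, 0, -p1; 0, 1, -p2]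

/-- The symmetric matrix which intertwines the companion matrix and its transpose. -/
def Sc (p2 p1 : K) : Matrix (Fin 3) (Fin 3) K := !![p1, p2, 1; p2, 1, 0; 1, 0, 0]

/-- A polynomial in the companion matrix. -/
def Yc (p2 p1 p0 y0 y1 y2 : K) : Matrix (Fin 3) (Fin 3) K :=
  y0 • 1 + y1 • Mc p2 p1 p0 + y2 • Mc p2 p1 p0 ^ 2

theorem Yc_eq (p2 p1 p0 y0 y1 y2 : K) : Yc p2 p1 p0 y0 y1 y2 =
    !![y0, -(y2 * p0), -(y1 * p0) + y2 * (p0 * p2);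
       y1, y0 - y2 * p1, -(y1 * p1) + y2 * (-p0 + p1 * p2);
       y2, y1 - y2 * p2, y0 - y1 * p2 + y2 * (-p1 + p2 * p2)] := by
  ext i j
  fin_cases i <;> fin_cases j <;> simp [Yc, Mc, pow_two] <;> ring

/-- The resultant of a quadratic polynomial and of a cubic polynomial with a given root. -/
theorem det_Yc (p2 p1 p0 y0 y1 y2 r : K) (hr : r ^ 3 + p2 * r ^ 2 + p1 * r + p0 = 0) :
    (Yc p2 p1 p0 y0 y1 y2).det = (y0 + y1 * r + y2 * r ^ 2) *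
        ((y0 - y2 * (p1 + r * (p2 + r))) ^ 2 -
          (y0 - y2 * (p1 + r * (p2 + r))) * (y1 - y2 * (p2 + r)) * (p2 + r) +
          (y1 - y2 * (p2 + r)) ^ 2 * (p1 + r * (p2 + r))) := by
  have h0 : p0 = -(r ^ 3 + p2 * r ^ 2 + p1 * r) := by linear_combination hr
  subst h0
  rw [Yc_eq, Matrix.det_fin_three]
  simp
  ring

/-- The discriminant. -/
def dsc (p2 p1 p0 : K) : K :=
  p2 ^ 2 * p1 ^ 2 - 4 * p1 ^ 3 - 4 * p2 ^ 3 * p0 + 18 * p2 * p1 * p0 - 27 * p0 ^ 2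

theorem dsc_eq (p2 p1 p0 r : K) (hr : r ^ 3 + p2 * r ^ 2 + p1 * r + p0 = 0) :
    dsc p2 p1 p0 = (3 * r ^ 2 + 2 * p2 * r + p1) ^ 2 * ((p2 + r) ^ 2 - 4 * (p1 + r * (p2 + r))) := by
  have h0 : p0 = -(r ^ 3 + p2 * r ^ 2 + p1 * r) := by linear_combination hr
  subst h0
  rw [dsc]
  ring

theorem dsc_id (p2 p1 p0 : K) : 4 * (p2 ^ 2 - 3 * p1) ^ 3 =
    27 * dsc p2 p1 p0 + (2 * p2 ^ 3 - 9 * p2 * p1 + 27 * p0) ^ 2 := by
  rw [dsc]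
  ring

/-- The symmetry. -/
theorem Yc_mul_Sc (p2 p1 p0 y0 y1 y2 : K) : (Yc p2 p1 p0 y0 y1 y2 * Sc p2 p1)ᵀ =
    Yc p2 p1 p0 y0 y1 y2 * Sc p2 p1 := by
  rw [Yc_eq]
  ext i j
  fin_cases i <;> fin_cases j <;> simp [Sc, Matrix.mul_apply, Fin.sum_univ_three] <;> ring

theorem Sc_transpose (p2 p1 : K) : (Sc p2 p1)ᵀ = Sc p2 p1 := by
  ext i j
  fin_cases i <;> fin_cases j <;> rfl

theorem det_Sc (p2 p1 : K) : (Sc p2 p1).det = -1 := by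
  rw [Sc, Matrix.det_fin_three]
  simp

theorem Mc_comm (p2 p1 p0 x0 x1 x2 y0 y1 y2 : K) :
    ∃ z0 z1 z2 : K, Yc p2 p1 p0 y0 y1 y2 * Yc p2 p1 p0 x0 x1 x2 = Yc p2 p1 p0 z0 z1 z2 := by
  refine ⟨y0 * x0 - (y1 * x2 + y2 * x1) * p0 + y2 * x2 * (p2 * p0),
    y0 * x1 + y1 * x0 - (y1 * x2 + y2 * x1) * p1 + y2 * x2 * (p2 * p1 - p0),
    y0 * x2 + y1 * x1 + y2 * x0 - (y1 * x2 + y2 * x1) * p2 + y2 * x2 * (p2 * p2 - p1), ?_⟩
  simp only [Yc_eq]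
  ext i j
  fin_cases i <;> fin_cases j <;> simp [Matrix.mul_apply, Fin.sum_univ_three] <;> ring

/-- The lower triangular factor. -/
def Lc (p2 p1 p0 : K) : Matrix (Fin 3) (Fin 3) K :=
  !![3, 0, 0;
     -p2, 2 * (p2 ^ 2 - 3 * p1), 0;
     p2 ^ 2 - 2 * p1, 3 * (-p2 ^ 3 + 3 * p1 * p2 - 3 * p0) + p2 * (p2 ^ 2 - 2 * p1), dsc p2 p1 p0]

theorem det_Lc (p2 p1 p0 : K) :
    (Lc p2 p1 p0).det = 3 * (2 * (p2 ^ 2 - 3 * p1)) * dsc p2 p1 p0 := by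
  rw [Lc, Matrix.det_fin_three]
  simp

theorem decomp (p2 p1 p0 : K) (h3 : (3 : K) ≠ 0) (hE : 2 * (p2 ^ 2 - 3 * p1) ≠ 0)
    (hD : dsc p2 p1 p0 ≠ 0) :
    (Sc p2 p1 * Lc p2 p1 p0) * !![3⁻¹, 0, 0; 0, (3 * (2 * (p2 ^ 2 - 3 * p1)))⁻¹, 0;
      0, 0, ((2 * (p2 ^ 2 - 3 * p1)) * dsc p2 p1 p0)⁻¹] * (Sc p2 p1 * Lc p2 p1 p0)ᵀ =
      Yc p2 p1 p0 p1 (2 * p2) 3 * Sc p2 p1 := by
  have h : Lc p2 p1 p0 * !![3⁻¹, 0, 0; 0, (3 * (2 * (p2 ^ 2 - 3 * p1)))⁻¹, 0;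
      0, 0, ((2 * (p2 ^ 2 - 3 * p1)) * dsc p2 p1 p0)⁻¹] * (Lc p2 p1 p0)ᵀ =
      !![3, -p2, p2 ^ 2 - 2 * p1;
         -p2, p2 ^ 2 - 2 * p1, -p2 ^ 3 + 3 * p1 * p2 - 3 * p0;
         p2 ^ 2 - 2 * p1, -p2 ^ 3 + 3 * p1 * p2 - 3 * p0,
         p2 ^ 4 - 4 * p1 * p2 ^ 2 + 4 * p2 * p0 + 2 * p1 ^ 2] := by
    obtain ⟨E, hEe⟩ : ∃ E, E = 2 * (p2 ^ 2 - 3 * p1) := ⟨_, rfl⟩
    obtain ⟨D, hDe⟩ : ∃ D, D = dsc p2 p1 p0 := ⟨_, rfl⟩
    rw [Lc, ← hEe, ← hDe]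
    rw [← hEe] at hE
    rw [← hDe] at hD
    rw [dsc] at hDe
    ext i j
    fin_cases i <;> fin_cases j
    all_goals simp [Matrix.mul_apply, Fin.sum_univ_three]
    all_goals field_simp
    all_goals first | (rw [hEe]; ring1) | (rw [hDe, hEe]; ring1) | ring1
  rw [Matrix.transpose_mul, Sc_transpose, Matrix.mul_assoc, Matrix.mul_assoc,
    ← Matrix.mul_assoc (!![3⁻¹, 0, 0; 0, _, 0; 0, 0, _]), ← Matrix.mul_assoc (Lc p2 p1 p0),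
    ← Matrix.mul_assoc (Lc p2 p1 p0), h, Yc_eq]
  ext i j
  fin_cases i <;> fin_cases j <;> simp [Sc, Matrix.mul_apply, Fin.sum_univ_three] <;> ring

/-- The value on the eigenrow. -/
theorem eig_Yc (p2 p1 p0 x0 x1 x2 r : K) (hr : r ^ 3 + p2 * r ^ 2 + p1 * r + p0 = 0) :
    ![1, r, r ^ 2] ᵥ* Yc p2 p1 p0 x0 x1 x2 = (x0 + x1 * r + x2 * r ^ 2) • ![1, r, r ^ 2] := by
  have h0 : p0 = -(r ^ 3 + p2 * r ^ 2 + p1 * r) := by linear_combination hr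
  subst h0
  rw [Yc_eq]
  ext j
  fin_cases j <;> simp [Matrix.vecMul, dotProduct, Fin.sum_univ_three] <;> ring

theorem eig_Sc (p2 p1 r : K) : (![1, r, r ^ 2] ᵥ* Sc p2 p1) ⬝ᵥ ![1, r, r ^ 2] =
    3 * r ^ 2 + 2 * p2 * r + p1 := by
  simp [Sc, Matrix.vecMul, dotProduct, Fin.sum_univ_three]
  ring

/-- The value of the quadratic form. -/
theorem val_Yc (p2 p1 p0 x0 x1 x2 y0 y1 y2 r : K) (hr : r ^ 3 + p2 * r ^ 2 + p1 * r + p0 = 0) :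
    ![1, r, r ^ 2] ⬝ᵥ ((Yc p2 p1 p0 y0 y1 y2 * (Yc p2 p1 p0 x0 x1 x2 * Sc p2 p1)) *ᵥ
      ![1, r, r ^ 2]) = (y0 + y1 * r + y2 * r ^ 2) * ((x0 + x1 * r + x2 * r ^ 2) *
        (3 * r ^ 2 + 2 * p2 * r + p1)) := by
  rw [Matrix.dotProduct_mulVec, ← Matrix.vecMul_vecMul, ← Matrix.vecMul_vecMul,
    eig_Yc _ _ _ _ _ _ _ hr, Matrix.smul_vecMul, Matrix.smul_vecMul, eig_Yc _ _ _ _ _ _ _ hr,
    Matrix.smul_vecMul, smul_dotProduct, smul_dotProduct, eig_Sc, smul_eq_mul, smul_eq_mul]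

end alg

section map

variable {F K : Type} [Field F] [Field K] (w : F →+* K)

theorem map_Yc (p2 p1 p0 y0 y1 y2 : F) : (Yc p2 p1 p0 y0 y1 y2).map w =
    Yc (w p2) (w p1) (w p0) (w y0) (w y1) (w y2) := by
  rw [Yc_eq, Yc_eq]
  ext i j
  fin_cases i <;> fin_cases j <;> simp

theorem map_Sc (p2 p1 : F) : (Sc p2 p1).map w = Sc (w p2) (w p1) := by
  ext i j
  fin_cases i <;> fin_cases j <;> simp [Sc]

theorem map_dsc (p2 p1 p0 : F) : w (dsc p2 p1 p0) = dsc (w p2) (w p1) (w p0) := by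
  simp only [dsc, map_sub, map_add, map_mul, map_pow, map_ofNat]

end map

section main

variable {F : Type} [Field F] {a b c : Fˣ}

theorem cub_ofF {S : Matrix (Fin 3) (Fin 3) F} (hS : Sᵀ = S) :
    Alb.cub (Alb.ofF S : Alb a b c) = S.det := by
  have h10 : S 1 0 = S 0 1 := congrFun (congrFun hS 0) 1
  have h21 : S 2 1 = S 1 2 := congrFun (congrFun hS 1) 2
  have h02 : S 0 2 = S 2 0 := congrFun (congrFun hS 2) 0
  rw [Matrix.det_fin_three]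
  simp only [Alb.cub, Alb.ofF, smul_mul_oct, mul_smul_oct, one_mul, bil_smul_left,
    E6I.bil_one_one, Oct.norm_smul, Oct.norm_one, h10, h21, h02]
  ring

/-- The sign of the multiplier. -/
theorem sign_frame' (w : F →+* ℝ) (hd : DefAt w a b c) (p2 p1 p0 : F)
    (h : Alb a b c ≃ₗ[F] Alb a b c) {μ : F} (hμ : 0 < w μ)
    (hcub : ∀ x, Alb.cub (h x) = μ * Alb.cub x) {y0 y1 y2 : F}
    (he : ∀ x0 x1 x2 : F, h (Alb.ofF (Yc p2 p1 p0 x0 x1 x2 * Sc p2 p1)) =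
      Alb.ofF (Yc p2 p1 p0 y0 y1 y2 * (Yc p2 p1 p0 x0 x1 x2 * Sc p2 p1)))
    {r : ℝ} (hr : r ^ 3 + w p2 * r ^ 2 + w p1 * r + w p0 = 0)
    (h0 : 3 * r ^ 2 + 2 * w p2 * r + w p1 ≠ 0) :
    0 < w y0 + w y1 * r + w y2 * r ^ 2 := by
  have hsym : ∀ x0 x1 x2 : F, (Yc p2 p1 p0 y0 y1 y2 * (Yc p2 p1 p0 x0 x1 x2 * Sc p2 p1))ᵀ =
      Yc p2 p1 p0 y0 y1 y2 * (Yc p2 p1 p0 x0 x1 x2 * Sc p2 p1) := by
    intro x0 x1 x2
    obtain ⟨z0, z1, z2, hz⟩ := Mc_comm p2 p1 p0 x0 x1 x2 y0 y1 y2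
    rw [← Matrix.mul_assoc, hz, Yc_mul_Sc]
  have hone : Yc p2 p1 p0 1 0 0 = 1 := by
    simp [Yc]
  -- the determinant
  have hdet : (Yc p2 p1 p0 y0 y1 y2).det = μ := by
    have h1 := hcub (Alb.ofF (Yc p2 p1 p0 1 0 0 * Sc p2 p1))
    rw [he, cub_ofF (hsym _ _ _), cub_ofF (Yc_mul_Sc _ _ _ _ _ _), hone, one_mul,
      Matrix.det_mul, det_Sc] at h1
    linear_combination -h1
  have hdw : 0 < (Yc (w p2) (w p1) (w p0) (w y0) (w y1) (w y2)).det := by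
    rw [← map_Yc, ← RingHom.mapMatrix_apply, ← RingHom.map_det, hdet]
    exact hμ
  rw [det_Yc _ _ _ _ _ _ r hr] at hdw
  rcases le_or_gt ((w p2 + r) ^ 2 - 4 * (w p1 + r * (w p2 + r))) 0 with hs | hs
  · -- one real root
    refine pos_of_mul_pos_left hdw ?_
    nlinarith [sq_nonneg (2 * (w y0 - w y2 * (w p1 + r * (w p2 + r))) -
      (w y1 - w y2 * (w p2 + r)) * (w p2 + r)),
      mul_nonneg (sq_nonneg (w y1 - w y2 * (w p2 + r))) (neg_nonneg.2 hs)]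
  · -- three real roots
    have hch : CharZero F := w.charZero
    have hD : 0 < dsc (w p2) (w p1) (w p0) := by
      rw [dsc_eq _ _ _ r hr]
      positivity
    have hE : 0 < w p2 ^ 2 - 3 * w p1 := by
      have h1 := dsc_id (w p2) (w p1) (w p0)
      have h2 : 0 < (w p2 ^ 2 - 3 * w p1) ^ 3 := by nlinarith [sq_nonneg (2 * w p2 ^ 3 - 9 * w p2 * w p1 + 27 * w p0)]
      by_contra h3
      exact absurd h2 (not_lt.2 (Odd.pow_nonpos (by decide) (not_lt.1 h3)))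
    have hDF : dsc p2 p1 p0 ≠ 0 := by
      intro h1
      rw [← map_dsc, h1, map_zero] at hD
      exact lt_irrefl _ hD
    have hEF : 2 * (p2 ^ 2 - 3 * p1) ≠ 0 := by
      intro h1
      have h2 : p2 ^ 2 - 3 * p1 = 0 := by
        rcases mul_eq_zero.1 h1 with h | h
        · exact absurd h two_ne_zero
        · exact h
      have h3 := congrArg w h2
      rw [map_sub, map_pow, map_mul, map_ofNat, map_zero] at h3
      rw [h3] at hE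
      exact lt_irrefl _ hE
    have h3F : (3 : F) ≠ 0 := three_ne_zero
    let g : Fin 3 → Fˣ := ![Units.mk0 3 h3F, Units.mk0 (3 * (2 * (p2 ^ 2 - 3 * p1))) (mul_ne_zero h3F hEF),
      Units.mk0 ((2 * (p2 ^ 2 - 3 * p1)) * dsc p2 p1 p0) (mul_ne_zero hEF hDF)]
    have hg : ∀ i, 0 < w (g i) := by
      intro i
      have hE' : w (2 * (p2 ^ 2 - 3 * p1)) = 2 * (w p2 ^ 2 - 3 * w p1) := by
        simp only [map_mul, map_sub, map_pow, map_ofNat]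
      fin_cases i
      · change 0 < w 3
        rw [map_ofNat]
        norm_num
      · change 0 < w (3 * (2 * (p2 ^ 2 - 3 * p1)))
        rw [map_mul, hE', map_ofNat]
        positivity
      · change 0 < w ((2 * (p2 ^ 2 - 3 * p1)) * dsc p2 p1 p0)
        rw [map_mul, hE', map_dsc]
        positivity
    have hU : (Sc p2 p1 * Lc p2 p1 p0).det ≠ 0 := by
      rw [Matrix.det_mul, det_Sc, det_Lc]
      exact mul_ne_zero (neg_ne_zero.2 one_ne_zero) (mul_ne_zero (mul_ne_zero h3F hEF) hDF)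
    have hP : cj (Sc p2 p1 * Lc p2 p1 p0) (Alb.one a b c g) =
        Alb.ofF (Yc p2 p1 p0 p1 (2 * p2) 3 * Sc p2 p1) := by
      have h1 : Alb.one a b c g = Alb.ofF !![3⁻¹, 0, 0; 0, (3 * (2 * (p2 ^ 2 - 3 * p1)))⁻¹, 0;
          0, 0, ((2 * (p2 ^ 2 - 3 * p1)) * dsc p2 p1 p0)⁻¹] := by
        ext1 <;> simp [Alb.one, Alb.ofF, g]
      rw [h1, cj_ofF _ _ (by ext i j; fin_cases i <;> fin_cases j <;> rfl), decomp _ _ _ h3F hEF hDF]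
    have h1 := pos_of_orbit' hd hd g hg ((cjE _ hU).trans h)
      (μ := μ * (Sc p2 p1 * Lc p2 p1 p0).det ^ 2) (by
        rw [map_mul, map_pow]
        have : w (Sc p2 p1 * Lc p2 p1 p0).det ≠ 0 := (map_ne_zero w).2 hU
        positivity) (fun z => by
        rw [LinearEquiv.trans_apply, hcub, cjE_apply, cub_cj]
        ring)
    have h2 : ∀ w1 w2 w3 : F, 0 ≤ w (Alb.val (Alb.ofF (Yc p2 p1 p0 y0 y1 y2 *
        (Yc p2 p1 p0 p1 (2 * p2) 3 * Sc p2 p1)) : Alb a b c) w1 w2 w3) := by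
      intro w1 w2 w3
      have h3 := h1 w1 w2 w3
      rwa [LinearEquiv.trans_apply, cjE_apply, hP, he] at h3
    have h3 := val_ofF_real (hsym _ _ _) h2 ![1, r, r ^ 2]
    rw [← RingHom.mapMatrix_apply, map_mul, map_mul, RingHom.mapMatrix_apply, RingHom.mapMatrix_apply,
      RingHom.mapMatrix_apply, map_Yc, map_Yc, map_Sc, val_Yc _ _ _ _ _ _ _ _ _ _ hr, map_mul, map_ofNat,
      map_ofNat] at h3
    have h4 : 0 ≤ w y0 + w y1 * r + w y2 * r ^ 2 := by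
      have h5 : 0 < (w p1 + 2 * w p2 * r + 3 * r ^ 2) * (3 * r ^ 2 + 2 * w p2 * r + w p1) := by
        have h6 : (w p1 + 2 * w p2 * r + 3 * r ^ 2) * (3 * r ^ 2 + 2 * w p2 * r + w p1) =
          (3 * r ^ 2 + 2 * w p2 * r + w p1) ^ 2 := by ring
        rw [h6]
        positivity
      exact nonneg_of_mul_nonneg_left h3 h5
    refine lt_of_le_of_ne h4 ?_
    intro h5
    rw [← h5, zero_mul] at hdw
    exact lt_irrefl _ hdw

/-- The sign of the multiplier: the literal form. -/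
theorem sign_frame (w : F →+* ℝ) (hd : DefAt w a b c) (p2 p1 p0 : F)
    {M S0 : Matrix (Fin 3) (Fin 3) F} (hM : M = !![0, 0, -p0; 1, 0, -p1; 0, 1, -p2])
    (hS0 : S0 = !![p1, p2, 1; p2, 1, 0; 1, 0, 0])
    (hsep : ∀ r : ℝ, r ^ 3 + w p2 * r ^ 2 + w p1 * r + w p0 = 0 →
      3 * r ^ 2 + 2 * w p2 * r + w p1 ≠ 0)
    (h : Alb a b c ≃ₗ[F] Alb a b c) {μ : F} (hμ : 0 < w μ)
    (hcub : ∀ x, Alb.cub (h x) = μ * Alb.cub x) {y0 y1 y2 : F}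
    (he : ∀ x0 x1 x2 : F, h (Alb.ofF ((x0 • 1 + x1 • M + x2 • M ^ 2) * S0)) =
      Alb.ofF ((y0 • 1 + y1 • M + y2 • M ^ 2) * ((x0 • 1 + x1 • M + x2 • M ^ 2) * S0)))
    {r : ℝ} (hr : r ^ 3 + w p2 * r ^ 2 + w p1 * r + w p0 = 0) :
    0 < w y0 + w y1 * r + w y2 * r ^ 2 := by
  subst hM hS0
  exact sign_frame' w hd p2 p1 p0 h hμ hcub he hr (hsep r hr)

end main

end Vale.Agent.P011.E6I.H319
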